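import Vale.Agent.P207Z.Sm.Trans.Ch

/-!
# P207, the smooth case: calculus for the transport
-/

open Set Filter Topology Metric MeasureTheory
open scoped ContDiff NNReal

noncomputable section

namespace Vale.Agent.P207Z.SC

open Vale.Agent.P207.N4 Vale.Agent.P207.N3

namespace Tr

section Lin

variable {G E V : Type} [NormedAddCommGroup G] [NormedSpace ℝ G] [FiniteDimensional ℝ G]
  [NormedAddCommGroup E] [NormedSpace ℝ E] [NormedAddCommGroup V] [NormedSpace ℝ V]

omit [NormedAddCommGroup E] [NormedSpace ℝ E] in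
theorem lin_eq (T : G →ₗ[ℝ] E → V) (a : G) (u : E) : T a u =
    ∑ i, LinearMap.toContinuousLinearMap ((Module.finBasis ℝ G).coord i) a •
      T (Module.finBasis ℝ G i) u := by
  conv_lhs => rw [← (Module.finBasis ℝ G).sum_repr a, map_sum, Finset.sum_apply]
  simp

/-- derivative of a family which is linear in the parameter -/
theorem lin_deriv (T : G →ₗ[ℝ] E → V) {Y : ℝ → G} {p : ℝ → E} {Y' : G} {p' : E} {t : ℝ}
    (hT : ∀ a, DifferentiableAt ℝ (T a) (p t)) (hY : HasDerivAt Y Y' t) (hp : HasDerivAt p p' t) :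
    HasDerivAt (fun s => T (Y s) (p s)) (T Y' (p t) + fderiv ℝ (T (Y t)) (p t) p') t := by
  set b := Module.finBasis ℝ G
  set l := fun i => LinearMap.toContinuousLinearMap (b.coord i)
  have h1 : HasDerivAt (fun s => ∑ i, l i (Y s) • T (b i) (p s))
      (∑ i, (l i (Y t) • fderiv ℝ (T (b i)) (p t) p' + l i Y' • T (b i) (p t))) t :=
    HasDerivAt.fun_sum fun i _ => ((l i).hasFDerivAt.comp_hasDerivAt t hY).smul
      ((hT (b i)).hasFDerivAt.comp_hasDerivAt t hp)
  have h2 : HasFDerivAt (fun u => ∑ i, l i (Y t) • T (b i) u)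
      (∑ i, l i (Y t) • fderiv ℝ (T (b i)) (p t)) (p t) :=
    HasFDerivAt.fun_sum fun i _ => (hT (b i)).hasFDerivAt.const_smul _
  have h3 : (fun u => ∑ i, l i (Y t) • T (b i) u) = T (Y t) := funext fun u => (lin_eq T _ u).symm
  have h4 : (fun s => ∑ i, l i (Y s) • T (b i) (p s)) = fun s => T (Y s) (p s) :=
    funext fun s => (lin_eq T _ _).symm
  rw [h3] at h2
  rw [h4, Finset.sum_add_distrib, add_comm] at h1
  rw [h2.fderiv, lin_eq T Y' (p t), _root_.sum_apply]
  exact h1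

theorem lin_smooth (T : G →ₗ[ℝ] E → V) {u : E} {n : WithTop ℕ∞}
    (hT : ∀ a, ContDiffAt ℝ n (T a) u) (a : G) :
    ContDiffAt ℝ n (fun q : G × E => T q.1 q.2) (a, u) := by
  rw [funext fun q : G × E => lin_eq T q.1 q.2]
  refine ContDiffAt.sum fun i _ => ContDiffAt.smul ?_ ?_
  · exact ((LinearMap.toContinuousLinearMap
      ((Module.finBasis ℝ G).coord i)).contDiff.comp contDiff_fst).contDiffAt
  · exact ContDiffAt.comp (f := fun q : G × E => q.2) (a, u) (hT _) contDiffAt_snd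

theorem lin_lip (T : G →ₗ[ℝ] E → V) {u : E} (hT : ∀ a, ContDiffAt ℝ 1 (T a) u) (a : G) :
    ∃ K : ℝ≥0, ∃ W ∈ 𝓝 u, ∀ᶠ a' in 𝓝 a, LipschitzOnWith K (T a') W := by
  obtain ⟨K, s, hs, hK⟩ := (lin_smooth T hT a).exists_lipschitzOnWith
  obtain ⟨A, hA, W, hW, h⟩ := mem_nhds_prod_iff.1 hs
  refine ⟨K, W, hW, mem_of_superset hA fun a' ha' => ?_⟩
  refine LipschitzOnWith.of_dist_le_mul fun v hv w hw => ?_
  have := hK.dist_le_mul (a', v) (h ⟨ha', hv⟩) (a', w) (h ⟨ha', hw⟩)
  simpa [Prod.dist_eq] using this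

end Lin

theorem fderiv_prod {W : Type} [NormedAddCommGroup W] [NormedSpace ℝ W] {F : W × W → ℝ}
    {z : W × W} (hF : DifferentiableAt ℝ F z) (v w : W) :
    fderiv ℝ F z (v, w) = d1 F z v + d2 F z w := by
  have h1 := (HasFDerivAt.comp (f := fun a => (a, z.2)) z.1 hF.hasFDerivAt
    (hasFDerivAt_prodMk_left z.1 z.2)).fderiv
  have h2 := (HasFDerivAt.comp (f := fun b => (z.1, b)) z.2 hF.hasFDerivAt
    (hasFDerivAt_prodMk_right z.1 z.2)).fderiv
  have e1 : d1 F z = _ := h1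
  have e2 : d2 F z = _ := h2
  rw [e1, e2]
  simp only [ContinuousLinearMap.comp_apply, ContinuousLinearMap.inl_apply,
    ContinuousLinearMap.inr_apply]
  rw [← map_add]
  simp

theorem hasDerivAt_abs_mul {f : ℝ → ℝ} {a t : ℝ} (h : HasDerivAt f (a * f t) t) :
    HasDerivAt (fun s => |f s|) (a * |f t|) t := by
  rcases lt_trichotomy (f t) 0 with h0 | h0 | h0
  · rw [abs_of_neg h0, mul_neg]
    exact h.neg.congr_of_eventuallyEq
      ((h.continuousAt.eventually (gt_mem_nhds h0)).mono fun s hs => abs_of_neg hs)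
  · rw [h0, mul_zero, hasDerivAt_iff_isLittleO] at h
    rw [h0, abs_zero, mul_zero, hasDerivAt_iff_isLittleO]
    simp only [h0, sub_zero, smul_zero, abs_zero] at h ⊢
    exact h.norm_left
  · rw [abs_of_pos h0]
    exact h.congr_of_eventuallyEq
      ((h.continuousAt.eventually (lt_mem_nhds h0)).mono fun s hs => abs_of_pos hs)

/-- solutions of a linear equation which vanish once -/
theorem lin_zero {V : Type} [NormedAddCommGroup V] [NormedSpace ℝ V] {W : ℝ → V}
    {N : ℝ → V →L[ℝ] V} {t : ℝ} {K : ℝ≥0}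
    (h : ∀ᶠ s in 𝓝 t, HasDerivAt W (N s (W s)) s ∧ ‖N s‖ ≤ K) :
    ∀ᶠ s in 𝓝 t, (W s = 0 ↔ W t = 0) := by
  obtain ⟨ε, hε, h1⟩ := Metric.eventually_nhds_iff_ball.1 h
  rw [Real.ball_eq_Ioo] at h1
  have key : ∀ r ∈ Ioo (t - ε) (t + ε), W r = 0 → ∀ s ∈ Ioo (t - ε) (t + ε), W s = 0 := by
    intro r hr h0 s hs
    exact ODE_solution_unique_of_mem_Ioo (v := fun s w => N s w) (s := fun _ => univ) (K := K)
      (g := fun _ => 0)
      (fun s hs => ((N s).lipschitz.weaken (h1 s hs).2).lipschitzOnWith) hr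
      (fun s hs => ⟨(h1 s hs).1, trivial⟩)
      (fun s _ => ⟨by simpa using hasDerivAt_const s (0 : V), trivial⟩) h0 hs
  have ht : t ∈ Ioo (t - ε) (t + ε) := ⟨by linarith, by linarith⟩
  filter_upwards [isOpen_Ioo.mem_nhds ht] with s hs using
    ⟨fun h0 => key s hs h0 t ht, fun h0 => key t ht h0 s hs⟩

variable [Dim]

theorem vdet_eq (w : Fin Dim.m → E2) :
    vdet w = (EuclideanSpace.basisFun (Fin Dim.m) ℝ).toBasis.det w := by
  rw [Module.Basis.det_apply, ← Matrix.det_transpose]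
  rfl

theorem vdet_comp (T : E2 →L[ℝ] E2) (w : Fin Dim.m → E2) :
    vdet (fun i => T (w i)) = T.det * vdet w := by
  rw [vdet_eq, vdet_eq]
  exact Module.Basis.det_comp _ (T : E2 →ₗ[ℝ] E2) w

theorem vdet_diff : Differentiable ℝ (vdet : (Fin Dim.m → E2) → ℝ) := by
  have e : (vdet : (Fin Dim.m → E2) → ℝ) = fun w => ∑ σ : Equiv.Perm (Fin Dim.m),
      ((Equiv.Perm.sign σ : ℤ) : ℝ) * ∏ i, w (σ i) i := funext fun w => Matrix.det_apply' _
  rw [e]
  fun_prop

theorem hasDerivAt_det (N : E2 →L[ℝ] E2) :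
    HasDerivAt (fun r : ℝ => (1 + r • N : E2 →L[ℝ] E2).det)
      (LinearMap.trace ℝ E2 (N : E2 →ₗ[ℝ] E2)) 0 := by
  set b := (EuclideanSpace.basisFun (Fin Dim.m) ℝ).toBasis
  set M := LinearMap.toMatrix b b (N : E2 →ₗ[ℝ] E2)
  set P := (Matrix.det (1 + (Polynomial.X : Polynomial ℝ) • M.map Polynomial.C)).divX.divX
  have e : (fun r : ℝ => (1 + r • N : E2 →L[ℝ] E2).det) =
      fun r => 1 + M.trace * r + P.eval r * r ^ 2 := by
    funext r
    rw [← Matrix.det_one_add_smul, ContinuousLinearMap.det, ← LinearMap.det_toMatrix b]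
    congr 1
    rw [ContinuousLinearMap.toLinearMap_add, ContinuousLinearMap.toLinearMap_smul, map_add, map_smul]
    congr 1
    exact LinearMap.toMatrix_id b
  rw [e, LinearMap.trace_eq_matrix_trace ℝ b]
  have h := (((hasDerivAt_id (0 : ℝ)).const_mul M.trace).const_add 1).add
    ((P.hasDerivAt 0).mul (hasDerivAt_pow 2 (0 : ℝ)))
  exact h.congr_deriv (by simp [M])

/-- the formula of Liouville -/
theorem hasDerivAt_vdet {w : ℝ → Fin Dim.m → E2} {N : E2 →L[ℝ] E2} {t : ℝ}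
    (h : ∀ i, HasDerivAt (fun s => w s i) (N (w t i)) t) :
    HasDerivAt (fun s => vdet (w s)) (LinearMap.trace ℝ E2 (N : E2 →ₗ[ℝ] E2) * vdet (w t)) t := by
  have h1 := (vdet_diff (w t)).hasFDerivAt.comp_hasDerivAt t (hasDerivAt_pi.2 h)
  have h2 : HasDerivAt (fun r : ℝ => fun i => w t i + r • N (w t i)) (fun i => N (w t i)) 0 :=
    hasDerivAt_pi.2 fun i => by
      simpa using ((hasDerivAt_id (0 : ℝ)).smul_const (N (w t i))).const_add (w t i)
  have h3 : HasFDerivAt vdet (fderiv ℝ vdet (w t))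
      ((fun r : ℝ => fun i => w t i + r • N (w t i)) 0) := by
    simpa using (vdet_diff (w t)).hasFDerivAt
  have h4 := h3.comp_hasDerivAt 0 h2
  have h5 := (hasDerivAt_det N).mul_const (vdet (w t))
  have e : (fun r : ℝ => (1 + r • N : E2 →L[ℝ] E2).det * vdet (w t)) =
      vdet ∘ fun r : ℝ => fun i => w t i + r • N (w t i) :=
    funext fun r => (vdet_comp (1 + r • N) (w t)).symm
  rw [e] at h5
  rw [← h4.unique h5]
  exact h1

end Tr

end Vale.Agent.P207Z.SC
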