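import Vale.Agent.P207Z.Sm.Sk

/-!
# P207, the smooth case: charts and driven curves
-/

open Set Filter Topology Metric MeasureTheory
open scoped ContDiff NNReal

noncomputable section

namespace Vale.Agent.P207Z.SC

open Vale.Agent.P207.N4 Vale.Agent.P207.N3

namespace Tr

/-- a property which is locally constant on a preconnected set -/
theorem all_of_loc {P : ℝ → Prop} {s : Set ℝ} (hs : IsPreconnected s)
    (ho : ∀ t ∈ s, P t → ∀ᶠ r in 𝓝 t, P r) (hc : ∀ t ∈ s, (∃ᶠ r in 𝓝 t, P r) → P t)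
    {t₀ : ℝ} (h0 : t₀ ∈ s) (hP : P t₀) : ∀ t ∈ s, P t := by
  have h : s ⊆ {t | ∀ᶠ r in 𝓝 t, P r} := by
    refine hs.subset_of_closure_inter_subset isOpen_setOfPred_eventually_nhds
      ⟨t₀, h0, ho t₀ h0 hP⟩ ?_
    rintro t ⟨h1, h2⟩
    exact ho t h2 (hc t h2 ((mem_closure_iff_frequently.1 h1).mono fun r hr => hr.self_of_nhds))
  exact fun t ht => (h ht).self_of_nhds

variable [Dim]

variable {Γ X B : Type} [Group Γ] [MetricSpace X] [ProperSpace X] [MulAction Γ X]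
  [IsIsometricSMul Γ X] [TopologicalSpace B] [CompactSpace B] [T2Space B] [MulAction Γ B]
  [ContinuousConstSMul Γ B] {L : Leaf Γ X B}

theorem ch_e {x : X} {u : E2} (hu : u ∈ ball (0 : E2) 3) : ch L x (L.e x u) = u :=
  (L.e_inj x).leftInvOn_invFunOn (ball_subset_closedBall hu)

theorem ch_mem {x : X} {ξ : B} (h : ξ ∈ L.e x '' ball 0 3) : ch L x ξ ∈ ball (0 : E2) 3 := by
  obtain ⟨u, hu, rfl⟩ := h
  rwa [ch_e hu]

theorem e_ch {x : X} {ξ : B} (h : ξ ∈ L.e x '' ball 0 3) : L.e x (ch L x ξ) = ξ := by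
  obtain ⟨u, hu, rfl⟩ := h
  rw [ch_e hu]

theorem isOpen_U (x : X) : IsOpen (L.e x '' ball 0 3) :=
  L.e_open.preimage (by fun_prop : Continuous fun ξ : B => (x, ξ))

theorem continuousAt_e {x : X} {u : E2} (hu : u ∈ ball (0 : E2) 3) : ContinuousAt (L.e x) u := by
  have h : ContinuousOn (L.e x) (closedBall 0 3) :=
    L.e_cont.comp (f := fun u : E2 => (x, u)) (by fun_prop) fun _ h => ⟨trivial, h⟩
  exact h.continuousAt (mem_of_superset (isOpen_ball.mem_nhds hu) ball_subset_closedBall)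

theorem tau_eq (x y : X) (u : E2) : L.τ x y u = ch L y (L.e x u) := rfl

theorem mem_dm {x y : X} {ξ : B} (hx : ξ ∈ L.e x '' ball 0 3) (hy : ξ ∈ L.e y '' ball 0 3) :
    ch L x ξ ∈ L.dm x y := ⟨ch_mem hx, by rwa [e_ch hx]⟩

theorem tau_ch {x y : X} {ξ : B} (hx : ξ ∈ L.e x '' ball 0 3) :
    L.τ x y (ch L x ξ) = ch L y ξ := by rw [tau_eq, e_ch hx]

/-- the curve `γ` is driven by the field `c` at the time `t` -/
def DrvAt (L : Leaf Γ X B) (c : X → E2 → E2) (γ : ℝ → B) (t : ℝ) : Prop :=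
  ContinuousAt γ t ∧ ∀ x, γ t ∈ L.e x '' ball 0 3 →
    HasDerivAt (fun s => ch L x (γ s)) (c x (ch L x (γ t))) t

theorem drv_iff {c : ℝ → X → E2 → E2} {γ : ℝ → B} : Drv L c γ ↔ ∀ t, DrvAt L (c t) γ t :=
  ⟨fun h t => ⟨h.1.continuousAt, h.2 t⟩,
    fun h => ⟨continuous_iff_continuousAt.2 fun t => (h t).1, fun t => (h t).2⟩⟩

theorem DrvAt.congr {c : X → E2 → E2} {γ γ' : ℝ → B} {t : ℝ} (h : DrvAt L c γ t)
    (he : γ' =ᶠ[𝓝 t] γ) : DrvAt L c γ' t := by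
  refine ⟨h.1.congr he.symm, fun x hx => ?_⟩
  rw [he.eq_of_nhds] at hx ⊢
  exact (h.2 x hx).congr_of_eventuallyEq (he.mono fun s hs => by simp only [hs])

theorem DrvAt.ev_mem {c : X → E2 → E2} {γ : ℝ → B} {t : ℝ} (h : DrvAt L c γ t) {x : X}
    (hx : γ t ∈ L.e x '' ball 0 3) : ∀ᶠ s in 𝓝 t, γ s ∈ L.e x '' ball 0 3 :=
  h.1.eventually ((isOpen_U x).mem_nhds hx)

/-- reparametrisation -/
theorem DrvAt.comp {c : X → E2 → E2} {γ : ℝ → B} {σ : ℝ → ℝ} {t a : ℝ} (h : DrvAt L c γ (σ t))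
    (hσ : HasDerivAt σ a t) : DrvAt L (a • c) (fun s => γ (σ s)) t :=
  ⟨ContinuousAt.comp (f := σ) h.1 hσ.continuousAt, fun x hx => (h.2 x hx).scomp t hσ⟩

theorem DrvAt.add {c : X → E2 → E2} {γ : ℝ → B} {t a : ℝ} (h : DrvAt L c γ (t + a)) :
    DrvAt L c (fun s => γ (s + a)) t := by
  have := DrvAt.comp (σ := fun s => s + a) h ((hasDerivAt_id t).add_const a)
  rwa [one_smul] at this

theorem DrvAt.deriv {V : Type} [NormedAddCommGroup V] [NormedSpace ℝ V] {g : B → V}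
    {c : X → E2 → E2} {γ : ℝ → B} {t : ℝ} (h : DrvAt L c γ t) {x : X} {u : E2}
    (hu : u ∈ ball (0 : E2) 3) (he : γ t = L.e x u)
    (hg : DifferentiableAt ℝ (fun w => g (L.e x w)) u) :
    HasDerivAt (fun s => g (γ s)) (fderiv ℝ (fun w => g (L.e x w)) u (c x u)) t := by
  have hx : γ t ∈ L.e x '' ball 0 3 := ⟨u, hu, he.symm⟩
  have h1 := h.2 x hx
  have h2 : ch L x (γ t) = u := by rw [he, ch_e hu]
  rw [h2] at h1
  have h3 := (h2 ▸ hg.hasFDerivAt :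
    HasFDerivAt _ _ ((fun s => ch L x (γ s)) t)).comp_hasDerivAt t h1
  rw [h2] at h3
  refine h3.congr_of_eventuallyEq ((h.ev_mem hx).mono fun s hs => ?_)
  simp only [Function.comp, e_ch hs]

/-- local uniqueness -/
theorem ev_eq {c : ℝ → X → E2 → E2} {γ γ' : ℝ → B} {t : ℝ} {x : X}
    (h : ∀ᶠ s in 𝓝 t, DrvAt L (c s) γ s) (h' : ∀ᶠ s in 𝓝 t, DrvAt L (c s) γ' s)
    (hx : γ t ∈ L.e x '' ball 0 3) (he : γ t = γ' t) {K : ℝ≥0} {V : Set E2}
    (hV : V ∈ 𝓝 (ch L x (γ t))) (hK : ∀ᶠ s in 𝓝 t, LipschitzOnWith K (c s x) V) :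
    γ =ᶠ[𝓝 t] γ' := by
  have hx' : γ' t ∈ L.e x '' ball 0 3 := he ▸ hx
  have a1 := h.self_of_nhds.ev_mem hx
  have a2 := h'.self_of_nhds.ev_mem hx'
  have b1 := (h.self_of_nhds.2 x hx).continuousAt.eventually hV
  have b2 := (h'.self_of_nhds.2 x hx').continuousAt.eventually (he ▸ hV)
  have key := ODE_solution_unique_of_eventually (v := fun s => c s x) (s := fun _ => V)
    (f := fun s => ch L x (γ s)) (g := fun s => ch L x (γ' s)) hK
    (by filter_upwards [h, a1, b1] with s h1 h2 h3 using ⟨h1.2 x h2, h3⟩)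
    (by filter_upwards [h', a2, b2] with s h1 h2 h3 using ⟨h1.2 x h2, h3⟩) (by rw [he])
  filter_upwards [key, a1, a2] with s h1 h2 h3
  rw [← e_ch h2, ← e_ch h3]
  exact congrArg _ h1

variable [MeasurableSpace B] [BorelSpace B]

theorem tau_diff (S : Sm L) {x y : X} {u : E2} (hu : u ∈ L.dm x y) :
    DifferentiableAt ℝ (L.τ x y) u := S.tau_jc.differentiableAt (p := ((x, y), u)) hu

/-- it is enough to check one chart -/
theorem drvAt_of_chart (S : Sm L) {c : X → E2 → E2} (hc : IsVF L c) {γ : ℝ → B} {t : ℝ}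
    (hγ : ContinuousAt γ t) {x : X} (hx : γ t ∈ L.e x '' ball 0 3)
    (hd : HasDerivAt (fun s => ch L x (γ s)) (c x (ch L x (γ t))) t) : DrvAt L c γ t := by
  refine ⟨hγ, fun y hy => ?_⟩
  have hu := mem_dm hx hy
  have h1 := (tau_diff S hu).hasFDerivAt.comp_hasDerivAt t hd
  rw [← hc.2 x y _ hu, tau_ch hx] at h1
  refine h1.congr_of_eventuallyEq ((hγ.eventually ((isOpen_U x).mem_nhds hx)).mono fun s hs => ?_)
  simp only [Function.comp, tau_ch hs]

theorem drvAt_of_param (S : Sm L) {c : X → E2 → E2} (hc : IsVF L c) {p : ℝ → E2} {t : ℝ} {x : X}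
    (hp : p t ∈ ball (0 : E2) 3) (hd : HasDerivAt p (c x (p t)) t) :
    DrvAt L c (fun s => L.e x (p s)) t := by
  refine drvAt_of_chart S hc (ContinuousAt.comp (f := p) (continuousAt_e hp) hd.continuousAt)
    ⟨_, hp, rfl⟩ ?_
  simp only [ch_e hp]
  refine hd.congr_of_eventuallyEq ?_
  filter_upwards [hd.continuousAt.eventually (isOpen_ball.mem_nhds hp)] with s hs using ch_e hs

theorem e_fr {S : Sm L} (h : Basic0 S) (ξ : B) : L.e (fr L ξ) 0 = ξ := by rw [L.e_zero, h.ep_fr]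

theorem mem_fr {S : Sm L} (h : Basic0 S) (ξ : B) : ξ ∈ L.e (fr L ξ) '' ball 0 3 :=
  ⟨0, mem_ball_self (by norm_num), e_fr h ξ⟩

theorem ch_fr {S : Sm L} (h : Basic0 S) (ξ : B) : ch L (fr L ξ) ξ = 0 := by
  have := ch_e (L := L) (x := fr L ξ) (mem_ball_self (by norm_num : (0 : ℝ) < 3))
  rwa [e_fr h] at this

omit [MeasurableSpace B] [BorelSpace B] in
/-- a field which vanishes at a point in one chart vanishes in all charts -/
theorem zero_of_chart {c : X → E2 → E2} (hc : IsVF L c) {ξ : B} {x : X}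
    (hx : ξ ∈ L.e x '' ball 0 3) (h0 : c x (ch L x ξ) = 0) :
    ∀ y, ∀ u ∈ ball (0 : E2) 3, L.e y u = ξ → c y u = 0 := by
  intro y u hu he
  have h1 := hc.2 x y _ (mem_dm hx ⟨u, hu, he⟩)
  rwa [h0, map_zero, tau_ch hx, ← he, ch_e hu] at h1

end Tr

variable [Dim]

variable {Γ X B : Type} [Group Γ] [MetricSpace X] [ProperSpace X] [MulAction Γ X]
  [IsIsometricSMul Γ X] [TopologicalSpace B] [CompactSpace B] [T2Space B] [MulAction Γ B]
  [ContinuousConstSMul Γ B] {L : Leaf Γ X B}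

/-- the derivative of a smooth function along a driven curve -/
theorem drv_deriv {V : Type} [NormedAddCommGroup V] [NormedSpace ℝ V] {g : B → V} (hg : IsFn L g)
    {c : ℝ → X → E2 → E2} {γ : ℝ → B} (h : Drv L c γ) {t : ℝ} {x : X} {u : E2}
    (hu : u ∈ ball (0 : E2) 3) (he : γ t = L.e x u) :
    HasDerivAt (fun s => g (γ s)) (fderiv ℝ (fun w => g (L.e x w)) u (c t x u)) t :=
  (Tr.drv_iff.1 h t).deriv hu he
    (((hg x).contDiffAt (isOpen_ball.mem_nhds hu)).differentiableAt (by simp))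

theorem Drv.shift {c : ℝ → X → E2 → E2} {γ : ℝ → B} (h : Drv L c γ) (a : ℝ) :
    Drv L (fun t => c (t + a)) (fun t => γ (t + a)) :=
  Tr.drv_iff.2 fun t => (Tr.drv_iff.1 h (t + a)).add

theorem Drv.scale {c : ℝ → X → E2 → E2} {γ : ℝ → B} (h : Drv L c γ) (a : ℝ) :
    Drv L (fun t => a • c (a * t)) (fun t => γ (a * t)) :=
  Tr.drv_iff.2 fun t => Tr.DrvAt.comp (σ := fun s => a * s) (Tr.drv_iff.1 h (a * t))
    (by simpa using (hasDerivAt_id t).const_mul a)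

theorem Drv.rev {c : ℝ → X → E2 → E2} {γ : ℝ → B} (h : Drv L c γ) :
    Drv L (fun t => -c (-t)) (fun t => γ (-t)) := by
  simpa using h.scale (-1)

theorem Drv.congr {c c' : ℝ → X → E2 → E2} {γ : ℝ → B} (h : Drv L c γ)
    (he : ∀ t x, ∀ u ∈ ball (0 : E2) 3, c' t x u = c t x u) : Drv L c' γ :=
  ⟨h.1, fun t x hx => by rw [he t x _ (Tr.ch_mem hx)]; exact h.2 t x hx⟩

theorem drv_const {c : ℝ → X → E2 → E2} {ξ : B}
    (h : ∀ t x, ∀ u ∈ ball (0 : E2) 3, L.e x u = ξ → c t x u = 0) : Drv L c fun _ => ξ :=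
  ⟨continuous_const, fun t x hx => by
    rw [h t x _ (Tr.ch_mem hx) (Tr.e_ch hx)]
    exact hasDerivAt_const _ _⟩

theorem drv_of_param [MeasurableSpace B] [BorelSpace B] (S : Sm L) {c : ℝ → X → E2 → E2}
    (hc : ∀ s, IsVF L (c s)) {p : ℝ → E2} {x : X} (hp : ∀ s, p s ∈ ball (0 : E2) 3)
    (hd : ∀ s, HasDerivAt p (c s x (p s)) s) : Drv L c fun s => L.e x (p s) :=
  Tr.drv_iff.2 fun t => Tr.drvAt_of_param S (hc t) (hp t) (hd t)

end Vale.Agent.P207Z.SC
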