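import Vale.Agent.P207Z.Sm.Trans.Ch

/-!
# P207, the smooth case: integral curves exist for all times
-/

open Set Filter Topology Metric MeasureTheory
open scoped ContDiff NNReal

noncomputable section

namespace Vale.Agent.P207Z.SC

open Vale.Agent.P207.N4 Vale.Agent.P207.N3

variable [Dim]

variable {Γ X B : Type} [Group Γ] [MetricSpace X] [ProperSpace X] [MulAction Γ X]
  [IsIsometricSMul Γ X] [TopologicalSpace B] [CompactSpace B] [T2Space B] [MulAction Γ B]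
  [ContinuousConstSMul Γ B] [MeasurableSpace B] [BorelSpace B] {L : Leaf Γ X B} {S : Sm L}

namespace Tr

theorem ev_eq_aut (h : Basic0 S) {c : X → E2 → E2} (hc : IsVF L c) {γ γ' : ℝ → B} {t : ℝ}
    (h1 : ∀ᶠ s in 𝓝 t, DrvAt L c γ s) (h2 : ∀ᶠ s in 𝓝 t, DrvAt L c γ' s) (he : γ t = γ' t) :
    γ =ᶠ[𝓝 t] γ' := by
  have hx := mem_fr h (γ t)
  obtain ⟨K, V, hV, hK⟩ := (((hc.1 _).contDiffAt (isOpen_ball.mem_nhds (ch_mem hx))).of_le
    (show (1 : WithTop ℕ∞) ≤ ∞ by exact_mod_cast le_top)).exists_lipschitzOnWith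
  exact ev_eq (c := fun _ => c) h1 h2 hx he hV (Eventually.of_forall fun _ => hK)

theorem eqOn_aut (h : Basic0 S) {c : X → E2 → E2} (hc : IsVF L c) {γ γ' : ℝ → B} {a b t₀ : ℝ}
    (h1 : ∀ s ∈ Ioo a b, DrvAt L c γ s) (h2 : ∀ s ∈ Ioo a b, DrvAt L c γ' s) (h0 : t₀ ∈ Ioo a b)
    (he : γ t₀ = γ' t₀) : ∀ t ∈ Ioo a b, γ t = γ' t :=
  all_of_loc (P := fun t => γ t = γ' t) isPreconnected_Ioo
    (fun _ ht e => ev_eq_aut h hc (mem_of_superset (isOpen_Ioo.mem_nhds ht) h1)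
      (mem_of_superset (isOpen_Ioo.mem_nhds ht) h2) e)
    (fun t ht e => tendsto_nhds_unique_of_frequently_eq (h1 t ht).1 (h2 t ht).1 e) h0 he

theorem exists_glue (h : Basic0 S) {c : X → E2 → E2} (hc : IsVF L c) {γ γ' : ℝ → B}
    {a b a' b' t₀ : ℝ} (h1 : ∀ s ∈ Ioo a b, DrvAt L c γ s) (h2 : ∀ s ∈ Ioo a' b', DrvAt L c γ' s)
    (h0 : t₀ ∈ Ioo a b) (h0' : t₀ ∈ Ioo a' b') (he : γ t₀ = γ' t₀) :
    ∃ δ : ℝ → B, (∀ t ≤ t₀, δ t = γ t) ∧ (∀ t, t₀ ≤ t → δ t = γ' t) ∧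
      ∀ s ∈ Ioo a b', DrvAt L c δ s := by
  classical
  have k1 : ∀ t ≤ t₀, (if t ≤ t₀ then γ t else γ' t) = γ t := fun t ht => if_pos ht
  have k2 : ∀ t, t₀ ≤ t → (if t ≤ t₀ then γ t else γ' t) = γ' t := fun t ht => by
    split_ifs with h3
    · rw [le_antisymm h3 ht, he]
    · rfl
  refine ⟨fun t => if t ≤ t₀ then γ t else γ' t, k1, k2, fun s hs => ?_⟩
  rcases lt_trichotomy s t₀ with h3 | rfl | h3
  · exact (h1 s ⟨hs.1, h3.trans h0.2⟩).congr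
      ((eventually_lt_nhds h3).mono fun r hr => k1 r hr.le)
  · refine (h1 s h0).congr ((ev_eq_aut h hc (mem_of_superset (isOpen_Ioo.mem_nhds h0) h1)
      (mem_of_superset (isOpen_Ioo.mem_nhds h0') h2) he).mono fun r hr => ?_)
    rcases le_total r s with h4 | h4
    · exact k1 r h4
    · exact (k2 r h4).trans hr.symm
  · exact (h2 s ⟨h0'.1.trans h3, hs.2⟩).congr
      ((eventually_gt_nhds h3).mono fun r hr => k2 r hr.le)

theorem exists_local (h : Basic0 S) {c : X → E2 → E2} (hc : IsVF L c) (ξ₀ : B) :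
    ∃ N ∈ 𝓝 ξ₀, ∃ ε > (0 : ℝ), ∀ ξ ∈ N, ∃ γ : ℝ → B, γ 0 = ξ ∧
      ∀ s ∈ Ioo (-ε) ε, DrvAt L c γ s := by
  have h0 : (0 : E2) ∈ ball (0 : E2) 3 := mem_ball_self (by norm_num)
  obtain ⟨ε, hε, a, r, L', K, hr, hpl⟩ := IsPicardLindelof.of_contDiffAt_one
    (((hc.1 (fr L ξ₀)).contDiffAt (isOpen_ball.mem_nhds h0)).of_le
      (show (1 : WithTop ℕ∞) ≤ ∞ by exact_mod_cast le_top))
  obtain ⟨α, h1, h2⟩ := (hpl 0).exists_forall_mem_closedBall_eq_hasDerivWithinAt_continuousOn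
  have hr' : (0 : ℝ) < r := hr
  have hn : closedBall (0 : E2) r ×ˢ Icc (0 - ε) (0 + ε) ∈ 𝓝 ((0 : E2), (0 : ℝ)) :=
    prod_mem_nhds (closedBall_mem_nhds _ hr') (Icc_mem_nhds (by linarith) (by linarith))
  have h3 : α (0, 0) ∈ ball (0 : E2) 3 := by
    have := (h1 0 (mem_closedBall_self hr'.le)).1
    rw [show α (0, 0) = 0 from this]
    exact h0
  have h4 := (h2.continuousAt hn).eventually (isOpen_ball.mem_nhds h3)
  rw [nhds_prod_eq] at h4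
  obtain ⟨pa, hpa, pb, hpb, h5⟩ := eventually_prod_iff.1 h4
  obtain ⟨ε', hε', h6⟩ := Metric.eventually_nhds_iff_ball.1
    (hpb.and (Ioo_mem_nhds (show 0 - ε < 0 by linarith) (show 0 < 0 + ε by linarith)))
  refine ⟨L.e (fr L ξ₀) '' {u | pa u ∧ u ∈ closedBall (0 : E2) r}, ?_, ε', hε', ?_⟩
  · have h7 := h.nhds (fr L ξ₀) 0 h0
    rw [e_fr h] at h7
    rw [← h7]
    exact image_mem_map (hpa.and (closedBall_mem_nhds _ hr'))
  · rintro _ ⟨u, ⟨hu, hu'⟩, rfl⟩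
    refine ⟨fun s => L.e (fr L ξ₀) (α (u, s)), congrArg _ (h1 u hu').1, fun s hs => ?_⟩
    have h7 := h6 s (by rw [Real.ball_eq_Ioo]; simpa using hs)
    exact drvAt_of_param S hc (p := fun s => α (u, s)) (h5 hu h7.1)
      (((h1 u hu').2 s (Ioo_subset_Icc_self h7.2)).hasDerivAt (Icc_mem_nhds h7.2.1 h7.2.2))

theorem exists_uniform (h : Basic0 S) {c : X → E2 → E2} (hc : IsVF L c) :
    ∃ ε > (0 : ℝ), ∀ ξ ∈ (univ : Set B), ∃ γ : ℝ → B, γ 0 = ξ ∧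
      ∀ s ∈ Ioo (-ε) ε, DrvAt L c γ s := by
  refine isCompact_univ.induction_on (p := fun N => ∃ ε > (0 : ℝ), ∀ ξ ∈ N, ∃ γ : ℝ → B, γ 0 = ξ ∧
    ∀ s ∈ Ioo (-ε) ε, DrvAt L c γ s) ⟨1, one_pos, fun _ hx => hx.elim⟩
    (fun _ _ hst ⟨ε, hε, H⟩ => ⟨ε, hε, fun ξ hξ => H ξ (hst hξ)⟩) ?_ fun ξ _ => ?_
  · rintro s t ⟨ε, hε, H⟩ ⟨ε', hε', H'⟩
    refine ⟨min ε ε', lt_min hε hε', fun ξ hξ => ?_⟩
    rcases hξ with hξ | hξ
    · obtain ⟨γ, h1, h2⟩ := H ξ hξ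
      exact ⟨γ, h1, fun s hs => h2 s
        (Ioo_subset_Ioo (neg_le_neg (min_le_left _ _)) (min_le_left _ _) hs)⟩
    · obtain ⟨γ, h1, h2⟩ := H' ξ hξ
      exact ⟨γ, h1, fun s hs => h2 s
        (Ioo_subset_Ioo (neg_le_neg (min_le_right _ _)) (min_le_right _ _) hs)⟩
  · obtain ⟨N, hN, H⟩ := exists_local h hc ξ
    exact ⟨N, mem_nhdsWithin_of_mem_nhds hN, H⟩

theorem exists_long (h : Basic0 S) {c : X → E2 → E2} (hc : IsVF L c) (ξ : B) (a : ℝ) :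
    ∃ γ : ℝ → B, γ 0 = ξ ∧ ∀ s ∈ Ioo (-a) a, DrvAt L c γ s := by
  obtain ⟨ε, hε, H⟩ := exists_uniform h hc
  have H' : ∀ (η : B) (t : ℝ), ∃ γ : ℝ → B, γ t = η ∧ ∀ s ∈ Ioo (t - ε) (t + ε), DrvAt L c γ s := by
    intro η t
    obtain ⟨γ, h1, h2⟩ := H η trivial
    refine ⟨fun s => γ (s + -t), by simpa using h1, fun s hs => DrvAt.add (h2 _ ?_)⟩
    exact ⟨by linarith [hs.1], by linarith [hs.2]⟩
  have key : ∀ n : ℕ, ∃ γ : ℝ → B, γ 0 = ξ ∧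
      ∀ s ∈ Ioo (-(ε + n * (ε / 2))) (ε + n * (ε / 2)), DrvAt L c γ s := by
    intro n
    induction n with
    | zero => simpa using H ξ trivial
    | succ n ih =>
      obtain ⟨γ, h1, h2⟩ := ih
      have hn : 0 ≤ (n : ℝ) * (ε / 2) := by positivity
      obtain ⟨γ₁, a1, a2⟩ := H' (γ (ε / 2 + n * (ε / 2))) (ε / 2 + n * (ε / 2))
      obtain ⟨δ, b1, -, b3⟩ := exists_glue h hc h2 a2 (t₀ := ε / 2 + n * (ε / 2))
        ⟨by linarith, by linarith⟩ ⟨by linarith, by linarith⟩ a1.symm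
      obtain ⟨γ₂, c1, c2⟩ := H' (δ (-(ε / 2 + n * (ε / 2)))) (-(ε / 2 + n * (ε / 2)))
      obtain ⟨δ', -, d2, d3⟩ := exists_glue h hc c2 b3 (t₀ := -(ε / 2 + n * (ε / 2)))
        ⟨by linarith, by linarith⟩ ⟨by linarith, by linarith⟩ c1
      refine ⟨δ', by rw [d2 0 (by linarith), b1 0 (by linarith), h1], fun s hs => d3 s ?_⟩
      push_cast at hs
      exact ⟨by linarith [hs.1], by linarith [hs.2]⟩
  obtain ⟨n, hn⟩ := exists_nat_ge (a / (ε / 2))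
  rw [div_le_iff₀ (half_pos hε)] at hn
  obtain ⟨γ, h1, h2⟩ := key n
  exact ⟨γ, h1, fun s hs => h2 s ⟨by linarith [hs.1], by linarith [hs.2]⟩⟩

end Tr

theorem ic (S : Sm L) (h : Basic0 S) : IC L := by
  intro c hc ξ
  choose γ h1 h2 using Tr.exists_long h hc ξ
  refine ⟨fun t => γ (|t| + 1) t, h1 _, Tr.drv_iff.2 fun t => ?_⟩
  have hm : ∀ s : ℝ, s ∈ Ioo (-(|s| + 1)) (|s| + 1) := fun s =>
    abs_lt.1 (lt_add_one _)
  refine (h2 _ t (hm t)).congr ?_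
  filter_upwards [isOpen_Ioo.mem_nhds (hm t)] with s hs
  have p1 : 0 < min (|s| + 1) (|t| + 1) := lt_min (by positivity) (by positivity)
  refine Tr.eqOn_aut h hc (a := -min (|s| + 1) (|t| + 1)) (b := min (|s| + 1) (|t| + 1)) (t₀ := 0)
    (fun r hr => h2 _ r (Ioo_subset_Ioo (neg_le_neg (min_le_left _ _)) (min_le_left _ _) hr))
    (fun r hr => h2 _ r (Ioo_subset_Ioo (neg_le_neg (min_le_right _ _)) (min_le_right _ _) hr))
    ⟨by linarith, p1⟩ (by rw [h1, h1]) s ?_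
  exact abs_lt.1 (lt_min (lt_add_one _) (abs_lt.2 hs))

end Vale.Agent.P207Z.SC
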